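import Vale.Agent.P110.FourBlock.Basic

namespace Vale.Agent.Results.P110.FourBlock

open Finset Vale.Agent.P110.FourBlock

theorem split_sum {L : ℕ} {ε : ℕ → ℝ} {a b : ℝ}
    (hε : ∀ i < L, ε (2 * L + i) = a * ε i ∧ ε (3 * L + i) = b * ε (L + i)) (z : ℂ) :
    ∑ k ∈ range (4 * L), (ε k : ℂ) * z ^ k =
      (blk L ε).eval z * (1 + a * z ^ (2 * L))
        + z ^ L * (blk L fun i => ε (L + i)).eval z * (1 + b * z ^ (2 * L)) := by
  simp only [eval_blk]
  rw [show 4 * L = L + L + L + L by ring, sum_range_add, sum_range_add, sum_range_add]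
  have h2 : ∑ x ∈ range L, (ε (L + L + x) : ℂ) * z ^ (L + L + x) =
      a * z ^ (2 * L) * ∑ i ∈ range L, (ε i : ℂ) * z ^ i := by
    rw [mul_sum]
    refine sum_congr rfl fun i hi => ?_
    rw [← two_mul, (hε i (mem_range.1 hi)).1, Complex.ofReal_mul, pow_add]
    ring
  have h3 : ∑ x ∈ range L, (ε (L + L + L + x) : ℂ) * z ^ (L + L + L + x) =
      b * z ^ (2 * L) * (z ^ L * ∑ i ∈ range L, (ε (L + i) : ℂ) * z ^ i) := by
    rw [mul_sum, mul_sum]
    refine sum_congr rfl fun i hi => ?_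
    rw [show L + L + L = 3 * L by ring, (hε i (mem_range.1 hi)).2, Complex.ofReal_mul,
      show 3 * L + i = 2 * L + L + i by ring, pow_add, pow_add]
    ring
  have h1 : ∑ x ∈ range L, (ε (L + x) : ℂ) * z ^ (L + x) =
      z ^ L * ∑ i ∈ range L, (ε (L + i) : ℂ) * z ^ i := by
    rw [mul_sum]
    exact sum_congr rfl fun i _ => by rw [pow_add]; ring
  rw [h1, h2, h3]
  ring

theorem gap {L s : ℝ} (hs : 0 ≤ s) (hL : 0 < L) (h : L ≤ |s ^ 2 - 4 * L|) :
    Real.sqrt (4 * L) / 10 ≤ |s - Real.sqrt (4 * L)| := by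
  have hr := Real.sq_sqrt (show 0 ≤ 4 * L by linarith)
  have hr0 := Real.sqrt_pos.2 (show 0 < 4 * L by linarith)
  generalize Real.sqrt (4 * L) = r at hr hr0 ⊢
  rcases le_abs.1 h with h | h
  · refine le_trans ?_ (le_abs_self _)
    nlinarith
  · refine le_trans ?_ (neg_le_abs _)
    nlinarith

/-- A Littlewood polynomial of length `N = 4L` with blocks `C, D, aC, bD` is never nearly flat. -/
theorem result (L : ℕ) (hL : 1 ≤ L) (ε : ℕ → ℝ) (hsign : ∀ k < 4 * L, ε k = 1 ∨ ε k = -1)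
    (a b : ℝ) (ha : a = 1 ∨ a = -1) (hb : b = 1 ∨ b = -1)
    (hblocks : ∀ i < L, ε (2 * L + i) = a * ε i ∧ ε (3 * L + i) = b * ε (L + i)) :
    ∃ z : ℂ, ‖z‖ = 1 ∧ Real.sqrt (4 * L : ℝ) / 10 ≤
      |‖∑ k ∈ Finset.range (4 * L), (ε k : ℂ) * z ^ k‖ - Real.sqrt (4 * L : ℝ)| := by
  by_cases hab : b = a
  · obtain ⟨z, hz⟩ := IsAlgClosed.exists_pow_nat_eq (-(a : ℂ)) (show 0 < 2 * L by omega)
    have ha2 : (a : ℂ) * a = 1 := by rcases ha with h | h <;> simp [h]
    refine ⟨z, ?_, ?_⟩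
    · have h1 : ‖z‖ ^ (2 * L) = 1 := by
        rw [← norm_pow, hz, norm_neg]
        rcases ha with h | h <;> simp [h]
      exact (pow_eq_one_iff_of_nonneg (norm_nonneg _) (by omega)).mp h1
    · rw [split_sum hblocks, hz, hab, mul_neg, ha2, add_neg_cancel, mul_zero, mul_zero, add_zero,
        norm_zero, zero_sub, abs_neg, abs_of_nonneg (Real.sqrt_nonneg _)]
      linarith [Real.sqrt_nonneg (4 * L : ℝ)]
  · have hba : b = -a := by
      rcases ha with h | h <;> rcases hb with h' | h' <;> simp_all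
    obtain ⟨z, hz, hfar⟩ := exists_far (L := L) hL (c := ε) (d := fun i => ε (L + i))
      (fun i hi => hsign i (by omega)) (fun i hi => hsign (L + i) (by omega)) ha
    refine ⟨z, hz, gap (norm_nonneg _) (by exact_mod_cast hL) ?_⟩
    rw [split_sum hblocks, hba, Complex.ofReal_neg, neg_mul, ← sub_eq_add_neg]
    exact hfar

end Vale.Agent.Results.P110.FourBlock
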