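import Mathlib

namespace Vale.Agent.Results.P110.ProductRigidity

open Finset Complex
open scoped ComplexConjugate

/-- The squared modulus of a polynomial on the unit circle, expanded. -/
theorem normSq_expand {L : ℕ} (a : Fin L → ℤ) {z : ℂ} (hz : ‖z‖ = 1) :
    ((‖∑ i, (a i : ℂ) * z ^ (i : ℕ)‖ ^ 2 : ℝ) : ℂ) =
      ∑ i, ∑ j, ((a i * a j : ℤ) : ℂ) * (z ^ (i : ℕ) * (z⁻¹) ^ (j : ℕ)) := by
  rw [Complex.ofReal_pow, ← Complex.mul_conj', map_sum, Finset.sum_mul_sum]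
  refine Finset.sum_congr rfl fun i _ => Finset.sum_congr rfl fun j _ => ?_
  rw [map_mul, map_pow, ← Complex.inv_eq_conj hz]
  simp only [map_intCast, Int.cast_mul]
  ring

theorem geom_root {m : ℕ} (hm : m ≠ 0) {ζ : ℂ} (hζ : IsPrimitiveRoot ζ m) (i j : ℕ)
    (hij : ¬ (m : ℤ) ∣ (i : ℤ) - j) : ∑ k ∈ range m, (ζ ^ i * (ζ⁻¹) ^ j) ^ k = 0 := by
  have h0 : ζ ≠ 0 := hζ.ne_zero hm
  have h1 : ζ ^ i * (ζ⁻¹) ^ j = ζ ^ ((i : ℤ) - j) := by
    rw [zpow_sub₀ h0, zpow_natCast, zpow_natCast, inv_pow, div_eq_mul_inv]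
  have hne : ζ ^ i * (ζ⁻¹) ^ j ≠ 1 := by
    rw [h1, Ne, hζ.zpow_eq_one_iff_dvd]
    exact hij
  rw [geom_sum_eq hne]
  have : (ζ ^ i * (ζ⁻¹) ^ j) ^ m = 1 := by
    rw [mul_pow, ← pow_mul, ← pow_mul, mul_comm i, mul_comm j, pow_mul, pow_mul, inv_pow,
      hζ.pow_eq_one, inv_one, one_pow, one_pow, mul_one]
  rw [this, sub_self, zero_div]

/-- The sum of the squared modulus over a coset of the `L`-th roots of unity is `L ^ 2`. -/
theorem coset_sum {L : ℕ} (hL : L ≠ 0) (a : Fin L → ℤ) (ha : ∀ i, a i = 1 ∨ a i = -1) {z ζ : ℂ}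
    (hz : ‖z‖ = 1) (hζ : IsPrimitiveRoot ζ L) :
    ∑ k ∈ range L, ‖∑ i, (a i : ℂ) * (z * ζ ^ k) ^ (i : ℕ)‖ ^ 2 = (L : ℝ) * L := by
  apply Complex.ofReal_injective
  rw [Complex.ofReal_sum]
  have hn : ∀ k : ℕ, ‖z * ζ ^ k‖ = 1 := fun k => by
    rw [norm_mul, norm_pow, hz, hζ.norm'_eq_one hL, one_pow, one_mul]
  simp_rw [normSq_expand a (hn _)]
  rw [Finset.sum_comm]
  simp_rw [Finset.sum_comm (s := range L)]
  have key : ∀ i j : Fin L, ∑ k ∈ range L, ((a i * a j : ℤ) : ℂ) *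
      ((z * ζ ^ k) ^ (i : ℕ) * ((z * ζ ^ k)⁻¹) ^ (j : ℕ)) = if i = j then (L : ℂ) else 0 := by
    intro i j
    have e : ∀ k : ℕ, (z * ζ ^ k) ^ (i : ℕ) * ((z * ζ ^ k)⁻¹) ^ (j : ℕ) =
        (z ^ (i : ℕ) * (z⁻¹) ^ (j : ℕ)) * (ζ ^ (i : ℕ) * (ζ⁻¹) ^ (j : ℕ)) ^ k := fun k => by
      simp only [mul_inv, mul_pow, inv_pow, ← pow_mul]
      ring
    simp_rw [e, ← mul_assoc, ← Finset.mul_sum]
    by_cases h : i = j
    · subst h
      have hz0 : z ≠ 0 := fun h => by simp [h] at hz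
      rcases ha i with h' | h' <;>
        simp [h', hζ.ne_zero hL, hz0]
    · rw [if_neg h, geom_root hL hζ _ _ ?_, mul_zero]
      rintro ⟨t, ht⟩
      have hi := i.isLt
      have hj := j.isLt
      apply h
      apply Fin.ext
      have htz : t = 0 := by
        have h1 : (L : ℤ) * t < L * 1 := by omega
        have h2 : (L : ℤ) * (-1) < L * t := by omega
        have := lt_of_mul_lt_mul_left h1 (by omega)
        have := lt_of_mul_lt_mul_left h2 (by omega)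
        omega
      rw [htz, mul_zero] at ht
      omega
  simp_rw [key]
  simp

/-- A Littlewood polynomial of length at least two deviates by at least one. -/
theorem deviation {L : ℕ} (hL : 2 ≤ L) (a : Fin L → ℤ) (ha : ∀ i, a i = 1 ∨ a i = -1) {D : ℝ}
    (hD : ∀ z : ℂ, ‖z‖ = 1 → |‖∑ i, (a i : ℂ) * z ^ (i : ℕ)‖ ^ 2 - (L : ℝ)| ≤ D) : 1 ≤ D := by
  set m := 2 * L with hm
  have hm0 : m ≠ 0 := by omega
  obtain ⟨ζ, hζ⟩ : ∃ ζ : ℂ, IsPrimitiveRoot ζ m :=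
    ⟨_, Complex.isPrimitiveRoot_exp m hm0⟩
  have hζ0 : ζ ≠ 0 := hζ.ne_zero hm0
  have hn : ∀ k : ℕ, ‖ζ ^ k‖ = 1 := fun k => by rw [norm_pow, hζ.norm'_eq_one hm0, one_pow]
  set S : ℂ := ∑ k ∈ range m, (ζ⁻¹ ^ (L - 1)) ^ k *
    ((‖∑ i, (a i : ℂ) * (ζ ^ k) ^ (i : ℕ)‖ ^ 2 - (L : ℝ) : ℝ) : ℂ) with hS
  have hbound : ‖S‖ ≤ m * D := by
    refine (norm_sum_le _ _).trans ((Finset.sum_le_card_nsmul _ _ D fun k _ => ?_).trans ?_)
    · rw [norm_mul, norm_pow, norm_pow, norm_inv, hζ.norm'_eq_one hm0, inv_one, one_pow, one_pow,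
        one_mul, Complex.norm_real, Real.norm_eq_abs]
      exact hD _ (hn k)
    · rw [Finset.card_range, nsmul_eq_mul]
  have hval : S = (m : ℂ) * ((a ⟨L - 1, by omega⟩ * a ⟨0, by omega⟩ : ℤ) : ℂ) := by
    have h2 : ∑ k ∈ range m, (ζ⁻¹ ^ (L - 1)) ^ k = 0 := by
      have := geom_root hm0 hζ 0 (L - 1) ?_
      · simpa using this
      · intro h
        have := Int.le_of_dvd (by omega) (dvd_neg.2 h)
        omega
    rw [hS]
    push_cast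
    simp only [mul_sub, Finset.sum_sub_distrib]
    rw [← Finset.sum_mul, h2, zero_mul, sub_zero]
    simp_rw [← Complex.ofReal_pow, normSq_expand a (hn _), Finset.mul_sum]
    rw [Finset.sum_comm]
    simp_rw [Finset.sum_comm (s := range m)]
    have key : ∀ i j : Fin L, ∑ k ∈ range m, (ζ⁻¹ ^ (L - 1)) ^ k *
        (((a i * a j : ℤ) : ℂ) * ((ζ ^ k) ^ (i : ℕ) * ((ζ ^ k)⁻¹) ^ (j : ℕ))) =
        if i = ⟨L - 1, by omega⟩ ∧ j = ⟨0, by omega⟩ then (m : ℂ) * ((a i * a j : ℤ) : ℂ)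
        else 0 := by
      intro i j
      have e : ∀ k : ℕ, (ζ⁻¹ ^ (L - 1)) ^ k *
          (((a i * a j : ℤ) : ℂ) * ((ζ ^ k) ^ (i : ℕ) * ((ζ ^ k)⁻¹) ^ (j : ℕ))) =
          ((a i * a j : ℤ) : ℂ) * (ζ ^ (i : ℕ) * (ζ⁻¹) ^ ((j : ℕ) + (L - 1))) ^ k := fun k => by
        simp only [pow_add, mul_pow, inv_pow, ← pow_mul]
        ring
      simp_rw [e, ← Finset.mul_sum]
      split_ifs with h
      · obtain ⟨rfl, rfl⟩ := h
        simp [hζ0, mul_comm]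
      · rw [geom_root hm0 hζ _ _ ?_, mul_zero]
        rintro ⟨t, ht⟩
        have hi := i.isLt
        have hj := j.isLt
        apply h
        have htz : t = 0 := by
          have h1 : (m : ℤ) * t < m * 1 := by omega
          have h2 : (m : ℤ) * (-1) < m * t := by omega
          have := lt_of_mul_lt_mul_left h1 (by omega)
          have := lt_of_mul_lt_mul_left h2 (by omega)
          omega
        rw [htz, mul_zero] at ht
        constructor <;> apply Fin.ext <;> simp <;> omega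
    simp_rw [Int.cast_mul] at key ⊢
    simp_rw [key, ite_and]
    simp
  have h3 : ‖S‖ = m := by
    rw [hval]
    rcases ha ⟨L - 1, by omega⟩ with h | h <;> rcases ha ⟨0, by omega⟩ with h' | h' <;>
      simp [h, h']
  have hmr : (0 : ℝ) < m := by exact_mod_cast Nat.pos_of_ne_zero hm0
  rw [h3] at hbound
  nlinarith

/-- Product rigidity, for a fixed deviation. -/
theorem product_rigidity :
    ∀ (L M : ℕ), 1 ≤ L → 1 ≤ M → ∀ (a : Fin L → ℤ) (b : Fin M → ℤ),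
      (∀ i, a i = 1 ∨ a i = -1) → (∀ j, b j = 1 ∨ b j = -1) → ∀ c : ℝ, c < 1 →
      (∀ z : ℂ, ‖z‖ = 1 →
        |‖∑ j, ∑ i, ((a i * b j : ℤ) : ℂ) * z ^ ((i : ℕ) + L * (j : ℕ))‖ ^ 2 - (L : ℝ) * M|
          ≤ c * ((L : ℝ) * M)) →
      (∀ w : ℂ, ‖w‖ = 1 → |‖∑ j, (b j : ℂ) * w ^ (j : ℕ)‖ ^ 2 - (M : ℝ)| ≤ c * M) ∧
      (∀ z : ℂ, ‖z‖ = 1 →
        |‖∑ i, (a i : ℂ) * z ^ (i : ℕ)‖ ^ 2 - (L : ℝ)| ≤ 2 * c / (1 - c) * L) ∧
      (2 ≤ M → 1 ≤ c * M) ∧ (2 ≤ L → 1 ≤ c * (2 * (L : ℝ) + 1)) := by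
  intro L M hL hM a b ha hb c hc hflat
  have hL0 : L ≠ 0 := by omega
  have hLr : (1 : ℝ) ≤ L := by exact_mod_cast hL
  have hMr : (1 : ℝ) ≤ M := by exact_mod_cast hM
  have hprod : ∀ z : ℂ, ∑ j, ∑ i, ((a i * b j : ℤ) : ℂ) * z ^ ((i : ℕ) + L * (j : ℕ)) =
      (∑ i, (a i : ℂ) * z ^ (i : ℕ)) * ∑ j, (b j : ℂ) * (z ^ L) ^ (j : ℕ) := by
    intro z
    rw [Finset.mul_sum]
    refine Finset.sum_congr rfl fun j _ => ?_
    rw [Finset.sum_mul]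
    refine Finset.sum_congr rfl fun i _ => ?_
    rw [pow_add, pow_mul]
    push_cast
    ring
  have hflat' : ∀ z : ℂ, ‖z‖ = 1 →
      (1 - c) * ((L : ℝ) * M) ≤ ‖∑ i, (a i : ℂ) * z ^ (i : ℕ)‖ ^ 2 *
          ‖∑ j, (b j : ℂ) * (z ^ L) ^ (j : ℕ)‖ ^ 2 ∧
      ‖∑ i, (a i : ℂ) * z ^ (i : ℕ)‖ ^ 2 *
          ‖∑ j, (b j : ℂ) * (z ^ L) ^ (j : ℕ)‖ ^ 2 ≤ (1 + c) * ((L : ℝ) * M) := by
    intro z hz
    have h := abs_le.1 (hflat z hz)
    rw [hprod, norm_mul, mul_pow] at h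
    constructor <;> linarith [h.1, h.2]
  have hc0 : 0 ≤ c := by
    have h := (abs_nonneg _).trans (hflat 1 norm_one)
    by_contra hcon
    push Not at hcon
    nlinarith [mul_pos (show (0 : ℝ) < L by linarith) (show (0 : ℝ) < M by linarith)]
  obtain ⟨ζ, hζ⟩ : ∃ ζ : ℂ, IsPrimitiveRoot ζ L := ⟨_, Complex.isPrimitiveRoot_exp L hL0⟩
  have hB : ∀ z : ℂ, ‖z‖ = 1 →
      |‖∑ j, (b j : ℂ) * (z ^ L) ^ (j : ℕ)‖ ^ 2 - (M : ℝ)| ≤ c * M := by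
    intro z hz
    have hk : ∀ k : ℕ, (z * ζ ^ k) ^ L = z ^ L := fun k => by
      rw [mul_pow, ← pow_mul, mul_comm k, pow_mul, hζ.pow_eq_one, one_pow, mul_one]
    have hn : ∀ k : ℕ, ‖z * ζ ^ k‖ = 1 := fun k => by
      rw [norm_mul, norm_pow, hz, hζ.norm'_eq_one hL0, one_pow, one_mul]
    set β := ‖∑ j, (b j : ℂ) * (z ^ L) ^ (j : ℕ)‖ ^ 2 with hβ
    have h1 := Finset.sum_le_sum (s := range L) fun k _ => (hflat' _ (hn k)).1
    have h2 := Finset.sum_le_sum (s := range L) fun k _ => (hflat' _ (hn k)).2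
    simp only [hk, ← hβ, Finset.sum_const, Finset.card_range, nsmul_eq_mul, ← Finset.sum_mul,
      coset_sum hL0 a ha hz hζ] at h1 h2
    have hpos : (0 : ℝ) < (L : ℝ) * L := by positivity
    rw [abs_le]
    constructor
    · have : (L : ℝ) * L * ((1 - c) * M) ≤ (L : ℝ) * L * β := by linarith
      have := le_of_mul_le_mul_left this hpos
      linarith
    · have : (L : ℝ) * L * β ≤ (L : ℝ) * L * ((1 + c) * M) := by linarith
      have := le_of_mul_le_mul_left this hpos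
      linarith
  have hBall : ∀ w : ℂ, ‖w‖ = 1 → |‖∑ j, (b j : ℂ) * w ^ (j : ℕ)‖ ^ 2 - (M : ℝ)| ≤ c * M := by
    intro w hw
    obtain ⟨z, hz⟩ := IsAlgClosed.exists_pow_nat_eq w (Nat.pos_of_ne_zero hL0)
    have hz1 : ‖z‖ = 1 := by
      have : ‖z‖ ^ L = 1 := by rw [← norm_pow, hz, hw]
      exact (pow_eq_one_iff_of_nonneg (norm_nonneg _) hL0).1 this
    rw [← hz]
    exact hB z hz1
  have hA : ∀ z : ℂ, ‖z‖ = 1 →
      |‖∑ i, (a i : ℂ) * z ^ (i : ℕ)‖ ^ 2 - (L : ℝ)| ≤ 2 * c / (1 - c) * L := by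
    intro z hz
    obtain ⟨l1, l2⟩ := hflat' z hz
    obtain ⟨b1, b2⟩ := abs_le.1 (hB z hz)
    set α := ‖∑ i, (a i : ℂ) * z ^ (i : ℕ)‖ ^ 2 with hα
    set β := ‖∑ j, (b j : ℂ) * (z ^ L) ^ (j : ℕ)‖ ^ 2 with hβ
    have hα0 : 0 ≤ α := by positivity
    have hM0 : (0 : ℝ) < M := by linarith
    rw [div_mul_eq_mul_div, abs_le, ← neg_div, div_le_iff₀ (by linarith),
      le_div_iff₀ (by linarith)]
    have hh1 : α * ((1 - c) * M) ≤ (1 + c) * ((L : ℝ) * M) :=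
      le_trans (mul_le_mul_of_nonneg_left (by linarith) hα0) l2
    have hh2 : (1 - c) * ((L : ℝ) * M) ≤ α * ((1 + c) * M) :=
      le_trans l1 (mul_le_mul_of_nonneg_left (by linarith) hα0)
    have e1 : α * (1 - c) ≤ (1 + c) * L := le_of_mul_le_mul_right (by linarith) hM0
    have e2 : (1 - c) * L ≤ α * (1 + c) := le_of_mul_le_mul_right (by linarith) hM0
    constructor
    · by_cases hαL : α ≤ L
      · nlinarith
      · push Not at hαL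
        nlinarith
    · linarith
  refine ⟨hBall, hA, fun h2 => deviation h2 b hb hBall, fun h2 => ?_⟩
  have h := deviation h2 a ha hA
  rw [div_mul_eq_mul_div, le_div_iff₀ (by linarith)] at h
  linarith

/-- Product rigidity for Littlewood polynomials `P(z) = A(z) B(z ^ L)`: the circle is `‖z‖ = 1`.
If `|P| ^ 2` stays within `c * N` of `N = L * M` on the circle then `|B| ^ 2` stays within `c * M`
of `M` and `|A| ^ 2` within `2 * c / (1 - c) * L` of `L`; consequently the coefficient sequence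
`a i * b j` (at degree `i + L * j`) can be `c`-flat only if `1 ≤ c * M` and `1 ≤ c * (2 * L + 1)`.
So, for every `k`, products with one factor of length between `2` and `k` are uniformly not flat. -/
theorem result :
    (∀ (L M : ℕ), 1 ≤ L → 1 ≤ M → ∀ (a : Fin L → ℤ) (b : Fin M → ℤ),
      (∀ i, a i = 1 ∨ a i = -1) → (∀ j, b j = 1 ∨ b j = -1) → ∀ c : ℝ, c < 1 →
      (∀ z : ℂ, ‖z‖ = 1 →
        |‖∑ j, ∑ i, ((a i * b j : ℤ) : ℂ) * z ^ ((i : ℕ) + L * (j : ℕ))‖ ^ 2 - (L : ℝ) * M|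
          ≤ c * ((L : ℝ) * M)) →
      (∀ w : ℂ, ‖w‖ = 1 → |‖∑ j, (b j : ℂ) * w ^ (j : ℕ)‖ ^ 2 - (M : ℝ)| ≤ c * M) ∧
      (∀ z : ℂ, ‖z‖ = 1 →
        |‖∑ i, (a i : ℂ) * z ^ (i : ℕ)‖ ^ 2 - (L : ℝ)| ≤ 2 * c / (1 - c) * L) ∧
      (2 ≤ M → 1 ≤ c * M) ∧ (2 ≤ L → 1 ≤ c * (2 * (L : ℝ) + 1))) ∧
    (∀ k : ℕ, 2 ≤ k → ∃ c : ℝ, 0 < c ∧ ∀ (L M : ℕ), 1 ≤ L → 1 ≤ M →
      (2 ≤ L ∧ L ≤ k ∨ 2 ≤ M ∧ M ≤ k) → ∀ (a : Fin L → ℤ) (b : Fin M → ℤ),
      (∀ i, a i = 1 ∨ a i = -1) → (∀ j, b j = 1 ∨ b j = -1) → ∃ z : ℂ, ‖z‖ = 1 ∧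
        c * Real.sqrt ((L : ℝ) * M) ≤
          |‖∑ j, ∑ i, ((a i * b j : ℤ) : ℂ) * z ^ ((i : ℕ) + L * (j : ℕ))‖ -
            Real.sqrt ((L : ℝ) * M)|) := by
  refine ⟨product_rigidity, fun k hk => ⟨1 / (4 * (2 * (k : ℝ) + 1)), by positivity,
    fun L M hL hM hside a b ha hb => ?_⟩⟩
  by_contra hcon
  push Not at hcon
  set δ : ℝ := 1 / (4 * (2 * (k : ℝ) + 1)) with hδ
  have hk2 : (2 : ℝ) ≤ k := by exact_mod_cast hk
  have hδ1 : δ * (2 * (k : ℝ) + 1) = 1 / 4 := by rw [hδ]; field_simp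
  have hδ0 : 0 < δ := by positivity
  have hδ2 : δ ≤ 1 / 4 := by nlinarith
  have hflat : ∀ z : ℂ, ‖z‖ = 1 →
      |‖∑ j, ∑ i, ((a i * b j : ℤ) : ℂ) * z ^ ((i : ℕ) + L * (j : ℕ))‖ ^ 2 - (L : ℝ) * M|
        ≤ 3 * δ * ((L : ℝ) * M) := by
    intro z hz
    have h := abs_lt.1 (hcon z hz)
    set r := Real.sqrt ((L : ℝ) * M) with hr
    have hr2 : r ^ 2 = (L : ℝ) * M := Real.sq_sqrt (by positivity)
    have hr0 : 0 ≤ r := Real.sqrt_nonneg _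
    rw [← hr2, abs_le]
    have h1 := norm_nonneg (∑ j, ∑ i, ((a i * b j : ℤ) : ℂ) * z ^ ((i : ℕ) + L * (j : ℕ)))
    have p1 : 0 ≤ δ * r := mul_nonneg hδ0.le hr0
    set X := ‖∑ j, ∑ i, ((a i * b j : ℤ) : ℂ) * z ^ ((i : ℕ) + L * (j : ℕ))‖
    have q1 : (X - r) * (X + r) ≤ δ * r * (X + r) :=
      mul_le_mul_of_nonneg_right h.2.le (by linarith)
    have q2 : -(δ * r) * (X + r) ≤ (X - r) * (X + r) :=
      mul_le_mul_of_nonneg_right h.1.le (by linarith)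
    have q3 : δ * r * (X + r) ≤ δ * r * (3 * r) :=
      mul_le_mul_of_nonneg_left (by linarith [mul_le_mul_of_nonneg_right hδ2 hr0]) p1
    constructor <;> linarith [sq X, sq r]
  obtain ⟨-, -, h2, h3⟩ := product_rigidity L M hL hM a b ha hb (3 * δ) (by linarith) hflat
  rcases hside with ⟨hL2, hLk⟩ | ⟨hM2, hMk⟩
  · have := h3 hL2
    have hLk' : (L : ℝ) ≤ k := by exact_mod_cast hLk
    nlinarith
  · have := h2 hM2
    have hMk' : (M : ℝ) ≤ k := by exact_mod_cast hMk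
    nlinarith

end Vale.Agent.Results.P110.ProductRigidity
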