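import Vale.Agent.P110.Flat.Main

/-!
There is an ultraflat sequence of real Littlewood polynomials, one for each length.
-/

namespace Vale.Agent.Results.P110.Ultraflat

open Filter

theorem result :
    ∃ ε : (N : ℕ) → Fin N → ℝ, (∀ N k, ε N k = 1 ∨ ε N k = -1) ∧
      ∀ c : ℝ, 0 < c → ∀ᶠ N : ℕ in atTop, ∀ z : ℂ, ‖z‖ = 1 →
        |‖∑ k : Fin N, (ε N k : ℂ) * z ^ (k : ℕ)‖ / Real.sqrt N - 1| ≤ c := by
  classical
  choose T hT using fun k : ℕ =>
    Vale.Agent.P110.Flat.ultraflat (1 / ((k : ℝ) + 1)) (by positivity)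
  have hε : ∀ N : ℕ, ∃ ε : Fin N → ℝ, (∀ k, ε k = 1 ∨ ε k = -1) ∧
      ∀ m ≤ N, T m ≤ N → ∀ z : ℂ, ‖z‖ = 1 →
        (1 - 1 / ((m : ℝ) + 1)) * Real.sqrt N ≤ ‖∑ k : Fin N, (ε k : ℂ) * z ^ (k : ℕ)‖ ∧
        ‖∑ k : Fin N, (ε k : ℂ) * z ^ (k : ℕ)‖ ≤ (1 + 1 / ((m : ℝ) + 1)) * Real.sqrt N := by
    intro N
    by_cases h : ∃ m ≤ N, T m ≤ N
    · obtain ⟨m, hm, hTm⟩ := h
      set M := Nat.findGreatest (fun m => T m ≤ N) N with hM
      have hspec : T M ≤ N := Nat.findGreatest_spec (P := fun m => T m ≤ N) hm hTm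
      obtain ⟨ε, h1, h2⟩ := hT M N hspec
      refine ⟨ε, h1, fun m' hm' hTm' z hz => ?_⟩
      have hle : m' ≤ M := Nat.le_findGreatest (P := fun m => T m ≤ N) hm' hTm'
      have hinv : 1 / ((M : ℝ) + 1) ≤ 1 / ((m' : ℝ) + 1) := by gcongr
      obtain ⟨hl, hu⟩ := h2 z hz
      constructor
      · exact le_trans (mul_le_mul_of_nonneg_right (by linarith) (Real.sqrt_nonneg _)) hl
      · exact le_trans hu (mul_le_mul_of_nonneg_right (by linarith) (Real.sqrt_nonneg _))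
    · exact ⟨fun _ => 1, fun _ => Or.inl rfl, fun m hm hTm => absurd ⟨m, hm, hTm⟩ h⟩
  choose ε h1 h2 using hε
  refine ⟨ε, h1, fun c hc => ?_⟩
  obtain ⟨m, hm⟩ := exists_nat_one_div_lt hc
  filter_upwards [eventually_ge_atTop (max (max (T m) m) 1)] with N hN z hz
  obtain ⟨hl, hu⟩ := h2 N m (le_trans (le_trans (le_max_right _ _) (le_max_left _ _)) hN)
    (le_trans (le_trans (le_max_left _ _) (le_max_left _ _)) hN) z hz
  have hs : 0 < Real.sqrt N :=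
    Real.sqrt_pos.2 (by exact_mod_cast le_trans (le_max_right _ _) hN)
  rw [abs_sub_le_iff, sub_le_iff_le_add, sub_le_comm, le_div_iff₀ hs, div_le_iff₀ hs]
  constructor <;> nlinarith

end Vale.Agent.Results.P110.Ultraflat
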